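import Vale.Agent.P182.H983.GDef
import Vale.Agent.P182.H62.SubQuo

/-!
# Tensors are sums of pure tensors, and the row C0 from pure tensors
-/

namespace Vale.Agent.P182.H647

open Module Matrix Vale.Agent.P182.H533 Vale.Agent.P182.B1 Vale.Agent.P182.H922
  Vale.Agent.P182.H578 Vale.Agent.P182.H588 Vale.Agent.P182.H181 Vale.Agent.P182.H983

universe u v w

section ten

variable {L V : Type*} [Field L] [AddCommGroup V] [Module L V]
  {q : V →ₗ[L] V →ₗ[L] L}

theorem tp_add_left (p p' w : V) : tp q (p + p') w = tp q p w + tp q p' w :=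
  LinearMap.ext fun v => by
    rw [LinearMap.add_apply, tp_apply, tp_apply, tp_apply, smul_add]

theorem tp_add_right (p w w' : V) : tp q p (w + w') = tp q p w + tp q p w' :=
  LinearMap.ext fun v => by
    rw [LinearMap.add_apply, tp_apply, tp_apply, tp_apply, map_add, LinearMap.add_apply, add_smul]

theorem tp_zero_left (w : V) : tp q 0 w = 0 :=
  LinearMap.ext fun v => by rw [tp_apply, smul_zero, LinearMap.zero_apply]

theorem tp_zero_right (p : V) : tp q p 0 = 0 :=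
  LinearMap.ext fun v => by
    rw [tp_apply, map_zero, LinearMap.zero_apply, zero_smul, LinearMap.zero_apply]

theorem tp_smul_left (c : L) (p w : V) : tp q (c • p) w = c • tp q p w :=
  LinearMap.ext fun v => by
    rw [LinearMap.smul_apply, tp_apply, tp_apply, smul_comm]

theorem tp_smul_right (c : L) (p w : V) : tp q p (c • w) = c • tp q p w :=
  LinearMap.ext fun v => by
    rw [LinearMap.smul_apply, tp_apply, tp_apply, map_smul, LinearMap.smul_apply, smul_assoc]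

theorem tp_neg_left (p w : V) : tp q (-p) w = -tp q p w := by
  rw [← neg_one_smul L p, tp_smul_left, neg_one_smul]

theorem tp_neg_right (p w : V) : tp q p (-w) = -tp q p w := by
  rw [← neg_one_smul L w, tp_smul_right, neg_one_smul]

theorem tp_sub_left (p p' w : V) : tp q (p - p') w = tp q p w - tp q p' w := by
  rw [sub_eq_add_neg, tp_add_left, tp_neg_left, sub_eq_add_neg]

theorem tp_sub_right (p w w' : V) : tp q p (w - w') = tp q p w - tp q p w' := by
  rw [sub_eq_add_neg, tp_add_right, tp_neg_right, sub_eq_add_neg]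

/-- the flip of a pure tensor -/
theorem tp_isAdj (hq : IsForm q) (p w : V) : IsAdj q (tp q p w) (tp q w p) := fun x y => by
  rw [tp_apply, tp_apply, map_smul, LinearMap.smul_apply, map_smul, smul_eq_mul, smul_eq_mul,
    hq.symm x w, mul_comm]

variable [FiniteDimensional L V]

/-- **Every tensor is a sum of pure tensors.** -/
theorem exists_sum_tp (hq : IsForm q) {U U' : Submodule L V} {T : End L V}
    (hT : T ∈ Ten q U U') : ∃ (m : ℕ) (e w : Fin m → V), (∀ i, e i ∈ U) ∧ (∀ i, w i ∈ U') ∧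
      T = ∑ i, tp q (e i) (w i) := by
  let b := Module.finBasis L U
  let Tc : V →ₗ[L] U := T.codRestrict U hT.1
  refine ⟨_, fun i => (b i : V), fun i => hq.eqv.symm (b.coord i ∘ₗ Tc), fun i => (b i).2,
    fun i => ?_, ?_⟩
  · rw [← H62.perp_perp hq U']
    intro v hv
    have h1 : Tc v = 0 := Subtype.ext (hT.2 v hv)
    rw [hq.eqv_symm_apply, LinearMap.comp_apply, h1, map_zero]
  · ext v
    rw [LinearMap.sum_apply]
    have h1 : ∀ i, tp q ((b i : U) : V) (hq.eqv.symm (b.coord i ∘ₗ Tc)) v =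
        ((b.repr (Tc v) i • b i : U) : V) := fun i => by
      rw [tp_apply, hq.eqv_symm_apply]
      rfl
    rw [Finset.sum_congr rfl fun i _ => h1 i, ← Submodule.coe_sum, b.sum_repr]
    rfl

/-- a linear condition on tensors can be checked on pure tensors -/
theorem ten_induction (hq : IsForm q) {U U' : Submodule L V} {M : Type*} [AddCommGroup M]
    [Module L M] (f : End L V →ₗ[L] M) {P : Submodule L M}
    (h : ∀ e ∈ U, ∀ w ∈ U', f (tp q e w) ∈ P) : ∀ T ∈ Ten q U U', f T ∈ P := by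
  intro T hT
  obtain ⟨m, e, w, he, hw, rfl⟩ := exists_sum_tp hq hT
  rw [map_sum]
  exact P.sum_mem fun i _ => h _ (he i) _ (hw i)

end ten

section fam

variable {L V J : Type*} [Field L] [AddCommGroup V] [Module L V] [Fintype J]

/-- `fam` as a linear map -/
def famL (𝒟 : Cfg L V J) (t : J → V) :
    (Fin 3 → End L V) →ₗ[L] (J → V) × (J → V) where
  toFun := fam 𝒟 t
  map_add' _ _ := rfl
  map_smul' _ _ := rfl

theorem famL_apply (𝒟 : Cfg L V J) (t : J → V) (T : Fin 3 → End L V) :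
    famL 𝒟 t T = fam 𝒟 t T := rfl

theorem fam_add (𝒟 : Cfg L V J) (t : J → V) (T T' : Fin 3 → End L V) :
    fam 𝒟 t (T + T') = fam 𝒟 t T + fam 𝒟 t T' := rfl

theorem fam_sub (𝒟 : Cfg L V J) (t : J → V) (T T' : Fin 3 → End L V) :
    fam 𝒟 t (T - T') = fam 𝒟 t T - fam 𝒟 t T' := rfl

theorem fam_smul (𝒟 : Cfg L V J) (t : J → V) (c : L) (T : Fin 3 → End L V) :
    fam 𝒟 t (c • T) = c • fam 𝒟 t T := rfl

theorem fam_zero (𝒟 : Cfg L V J) (t : J → V) : fam 𝒟 t (0 : Fin 3 → End L V) = 0 := rfl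

/-- `T ↦ fam (single a T)` as a linear map -/
def famS (𝒟 : Cfg L V J) (t : J → V) (a : Fin 3) : End L V →ₗ[L] (J → V) × (J → V) :=
  famL 𝒟 t ∘ₗ LinearMap.single L (fun _ => End L V) a

theorem famS_apply (𝒟 : Cfg L V J) (t : J → V) (a : Fin 3) (T : End L V) :
    famS 𝒟 t a T = fam 𝒟 t (Pi.single a T) := rfl

/-- a triple of tensors, arm by arm -/
theorem fam_mem_of_single {𝒟 : Cfg L V J} {t : J → V} {P : Submodule L ((J → V) × (J → V))}
    {T : Fin 3 → End L V} (h : ∀ a, fam 𝒟 t (Pi.single a (T a)) ∈ P) : fam 𝒟 t T ∈ P := by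
  rw [← Finset.univ_sum_single T, ← famL_apply, map_sum]
  exact P.sum_mem fun a _ => h a

variable [FiniteDimensional L V]

/-- membership can be checked on pure tensors -/
theorem fam_single_mem {𝒟 : Cfg L V J} (hq : IsForm 𝒟.q) {t : J → V} {a : Fin 3}
    {P : Submodule L ((J → V) × (J → V))} {U U' : Submodule L V}
    (h : ∀ e ∈ U, ∀ w ∈ U', fam 𝒟 t (Pi.single a (tp 𝒟.q e w)) ∈ P) :
    ∀ T ∈ Ten 𝒟.q U U', fam 𝒟 t (Pi.single a T) ∈ P :=
  ten_induction hq (famS 𝒟 t a) h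

omit [FiniteDimensional L V] in
/-- pure tensors in sums of subspaces, bilinear induction -/
theorem fam_tp_iSup {𝒟 : Cfg L V J} {t : J → V} {a : Fin 3}
    {P : Submodule L ((J → V) × (J → V))} {ι κ : Type*} {A : ι → Submodule L V}
    {B : κ → Submodule L V}
    (h : ∀ i j, ∀ e ∈ A i, ∀ f ∈ B j, fam 𝒟 t (Pi.single a (tp 𝒟.q e f)) ∈ P) :
    ∀ e ∈ ⨆ i, A i, ∀ f ∈ ⨆ j, B j, fam 𝒟 t (Pi.single a (tp 𝒟.q e f)) ∈ P := by
  intro e he f hf
  refine Submodule.iSup_induction A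
    (motive := fun e => fam 𝒟 t (Pi.single a (tp 𝒟.q e f)) ∈ P) he (fun i e he => ?_) ?_ ?_
  · refine Submodule.iSup_induction B
      (motive := fun f => fam 𝒟 t (Pi.single a (tp 𝒟.q e f)) ∈ P) hf
      (fun j f hf => h i j e he f hf) ?_ ?_
    · rw [tp_zero_right, ← famS_apply, map_zero]
      exact P.zero_mem
    · intro x y hx hy
      rw [tp_add_right, ← famS_apply, map_add]
      exact P.add_mem hx hy
  · rw [tp_zero_left, ← famS_apply, map_zero]
    exact P.zero_mem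
  · intro x y hx hy
    rw [tp_add_left, ← famS_apply, map_add]
    exact P.add_mem hx hy

end fam

section row

variable {L : Type u} {V : Type v} {J : Type w} [Field L] [AddCommGroup V] [Module L V]
  [Fintype J] [DecidableEq J] [FiniteDimensional L V] {𝒟 : Cfg L V J} {u : J → L} {t t' : J → V}
  {W I : Submodule L V} {n : ℕ} {U : Fin n → Submodule L V} {d : Fin n → L} {p : Fin 3 → ℕ}

/-- `I ⊗ W` at one arm, from pure tensors of the blocks -/
theorem ten_IW (hq : IsForm 𝒟.q) (B : Blk 𝒟 u t t' W I U d p)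
    {P : Submodule L ((J → V) × (J → V))} {a : Fin 3}
    (h1 : ∀ i j, ∀ e ∈ U i ⊓ I, ∀ f ∈ U j, fam 𝒟 t (Pi.single a (tp 𝒟.q e f)) ∈ P) :
    ∀ T ∈ Ten 𝒟.q I W, fam 𝒟 t (Pi.single a T) ∈ P := by
  refine fam_single_mem hq fun e he w hw => ?_
  rw [← B.supI] at he
  rw [← B.supU] at hw
  exact fam_tp_iSup h1 e he w hw

/-- `W ⊗ I` at one arm, from pure tensors of the blocks -/
theorem ten_WI (hq : IsForm 𝒟.q) (B : Blk 𝒟 u t t' W I U d p)
    {P : Submodule L ((J → V) × (J → V))} {a : Fin 3}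
    (h2 : ∀ i j, ∀ e ∈ U i ⊓ I, ∀ f ∈ U j, fam 𝒟 t (Pi.single a (tp 𝒟.q f e)) ∈ P) :
    ∀ T ∈ Ten 𝒟.q W I, fam 𝒟 t (Pi.single a T) ∈ P := by
  refine fam_single_mem hq fun w hw e he => ?_
  rw [← B.supI] at he
  rw [← B.supU] at hw
  exact fam_tp_iSup (fun j i f hf e he => h2 i j e he f hf) w hw e he

/-- **`I ⊗ W` at all arms**, from pure tensors of the blocks -/
theorem ten_I (hq : IsForm 𝒟.q) (B : Blk 𝒟 u t t' W I U d p)
    (h1 : ∀ i j a, ∀ e ∈ U i ⊓ I, ∀ f ∈ U j,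
      fam 𝒟 t (Pi.single a (tp 𝒟.q e f)) ∈ WF 𝒟 t W I u) :
    ∀ T : Fin 3 → End L V, (∀ a, T a ∈ Ten 𝒟.q I W) → fam 𝒟 t T ∈ WF 𝒟 t W I u :=
  fun _ hT => fam_mem_of_single fun a => ten_IW hq B (fun i j => h1 i j a) _ (hT a)

/-- **The row C0 from pure tensors.** -/
theorem rowC0_of_pure (hq : IsForm 𝒟.q) (B : Blk 𝒟 u t t' W I U d p)
    (h1 : ∀ i j a, ∀ e ∈ U i ⊓ I, ∀ f ∈ U j,
      fam 𝒟 t (Pi.single a (tp 𝒟.q e f)) ∈ WF 𝒟 t W I u)
    (h2 : ∀ i j a, ∀ e ∈ U i ⊓ I, ∀ f ∈ U j,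
      fam 𝒟 t (Pi.single a (tp 𝒟.q f e)) ∈ WF 𝒟 t W I u) : RowC0 𝒟 u t W I := by
  intro a T hT
  obtain ⟨T1, h3, T2, h4, rfl⟩ := Submodule.mem_sup.mp hT
  rw [← famS_apply, map_add]
  exact Submodule.add_mem _ (ten_IW hq B (fun i j => h1 i j a) _ h3)
    (ten_WI hq B (fun i j => h2 i j a) _ h4)

end row

end Vale.Agent.P182.H647
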