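import Vale.Agent.P182.H647.Pure
import Vale.Agent.P182.H533.PF
import Vale.Agent.P182.H258.ChainWF
import Vale.Agent.P182.H398.Stab
import Vale.Agent.P182.H922.BlkA

/-!
# The second half of (C0b): `U_k ⊗ (U_i ⊓ I)`

From a pair of flows at two bases with opposite parity, the odd part of the derivative of
`f ⊗ e`, `e ∈ U_j ⊓ I`.
-/

namespace Vale.Agent.P182.H647

open Module Matrix Vale.Agent.P182.H533 Vale.Agent.P182.B1 Vale.Agent.P182.H922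
  Vale.Agent.P182.H578 Vale.Agent.P182.H588 Vale.Agent.P182.H181 Vale.Agent.P182.H983
  Vale.Agent.P182.H58.Glue7 Vale.Agent.P182.H533.C0

universe u v w

variable {L : Type u} {V : Type v} {J : Type w} [Field L] [AddCommGroup V] [Module L V]
  [Fintype J] [DecidableEq J] {𝒟 : Cfg L V J} {u : J → L} {t t' : J → V}
  {W I : Submodule L V} {m : ℕ} {U : Fin m → Submodule L V} {d : Fin m → L} {p : Fin 3 → ℕ}
  [FiniteDimensional L V]

section base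

omit [FiniteDimensional L V] in
/-- the families of the kernel are scalars on the blocks -/
theorem exists_rho (B : H983.Blk 𝒟 u t t' W I U d p) {R : J → V} (hR : R ∈ Ku 𝒟 u) {x y : L}
    {k : Fin m} (hk : x + y * d k ≠ 0) :
    ∃ c : L, ∀ v ∈ U k, ∀ l, 𝒟.q (R l) v = c * 𝒟.q (tm t t' x y l) v := by
  obtain ⟨a, b, rfl⟩ := B.span R hR
  refine ⟨(a + b * d k) / (x + y * d k), fun v hv l => ?_⟩
  have h1 : 𝒟.q ((a • t + b • t') l) v = (a + b * d k) * 𝒟.q (t l) v :=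
    H258.q_tm B a b k hv l
  rw [h1, H258.q_tm B x y k hv l, ← mul_assoc, div_mul_cancel₀ _ hk]

omit [FiniteDimensional L V] [DecidableEq J] [Fintype J] in
/-- the operators `T - T^†` are skew -/
theorem sk_of_adj {q : V →ₗ[L] V →ₗ[L] L} (hq : IsForm q) {T T' : Fin 3 → End L V}
    (hT' : ∀ a v w, q (T a v) w = q v (T' a w)) (a : Fin 3) : IsSk q (T a - T' a) := by
  intro x y
  rw [LinearMap.sub_apply, LinearMap.sub_apply, map_sub, map_sub, LinearMap.sub_apply, hT',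
    hq.symm x (T a y), hT', hq.symm (T' a x) y]
  ring

variable (hG : 𝒟.Good) (hK : KRel 𝒟.arm 𝒟.q 𝒟.Ω (Tt L '' (Ku 𝒟 u : Set (J → V))))
  (B : H983.Blk 𝒟 u t t' W I U d p)

include hG hK B

omit [FiniteDimensional L V] in
theorem res_tm_U (x y : L) {k : Fin m} {v : V} (hv : v ∈ U k) (a : Fin 3) :
    Res 𝒟 (tm t t' x y) a v ∈ U k := by
  rw [res_tm hG hK B x y hv]
  exact (U k).smul_mem _ (res_mem_U hG hK B hv a)

omit [FiniteDimensional L V] in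
theorem res_tm_I (x y : L) {v : V} (hv : v ∈ I) (a : Fin 3) :
    Res 𝒟 (tm t t' x y) a v ∈ I := st_tm_I hG hK B x y (mem_st a hv)

omit [FiniteDimensional L V] in
theorem exists_wo {x y : L} (hc : ∀ k, x + y * d k ≠ 0) :
    ∃ N, H398.wo (Res 𝒟 (tm t t' x y)) I N = ⊥ := by
  obtain ⟨N, hN⟩ := exists_nil hG hK B hc
  have hwo : ∀ r, H398.wo (Res 𝒟 (tm t t' x y)) I r = (st (Res 𝒟 (tm t t' x y)))^[r] I := by
    intro r
    induction r with
    | zero => rfl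
    | succ r ih => rw [Function.iterate_succ_apply', ← ih]; rfl
  exact ⟨N, by rw [hwo]; exact hN⟩

/-- an admissible triple: the commutators of `T - T^†` with the residues are in `I` -/
theorem adm_comm {x y : L} (hc : ∀ k, x + y * d k ≠ 0) {i j : Fin m}
    {T T' : Fin 3 → End L V}
    (hT : Adm 𝒟.q (Res 𝒟 (tm t t' x y)) I (U i) (U j) T)
    (hT' : ∀ a v w, 𝒟.q (T a v) w = 𝒟.q v (T' a w)) (a : Fin 3) {w : V} (hw : w ∈ W) :
    (T a - T' a) (Res 𝒟 (tm t t' x y) a w) - Res 𝒟 (tm t t' x y) a ((T a - T' a) w) ∈ I := by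
  have hq := hG.form
  have hSA : ∀ a, IsSA 𝒟.q (Res 𝒟 (tm t t' x y) a) := fun a =>
    Sop_SA 𝒟.arm hq (Tt L (tm t t' x y)) hG.skew a
  have hUW : ∀ k, U k ≤ W := fun k => S2.U_le B k
  have hSW : ∀ a, ∀ w ∈ W, Res 𝒟 (tm t t' x y) a w ∈ W := by
    intro a w hw
    rw [← B.supU] at hw
    refine Submodule.iSup_induction U (motive := fun w => Res 𝒟 (tm t t' x y) a w ∈ W) hw
      (fun k w hw => hUW k (res_tm_U hG hK B x y hw a)) ?_ ?_
    · rw [map_zero]; exact zero_mem _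
    · intro v w hv hw
      rw [map_add]; exact add_mem hv hw
  refine H398.adm_YS hq hSA (W := W) (I := I) (Ui := U i) (Uj := U j)
    (fun x hx w hw => S2.I_perp B hx hw) (fun x hx h => S2.mem_I B hx h) hSW ?_ ?_ hT
    (fun a x y => by rw [hq.symm, ← hT', hq.symm]) ?_ a hw
  · intro w hw
    obtain ⟨σ, h1, h2⟩ := S2.exists_dec B
    refine ⟨σ j w, h1 j w, fun v hv => ?_⟩
    have h3 : 𝒟.q w v = 𝒟.q (σ j w) v := by
      conv_lhs => rw [← h2 w hw]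
      rw [map_sum, LinearMap.sum_apply, Finset.sum_eq_single j]
      · intro k _ hk
        exact B.ortho k j hk _ (h1 k w) _ hv
      · intro h; exact absurd (Finset.mem_univ _) h
    rw [map_sub, LinearMap.sub_apply, h3, sub_self]
  · intro a w hw v hv
    rw [hSA]
    exact hw _ (res_tm_U hG hK B x y hv a)
  · intro a v
    exact hUW j (H258.flip_mem hq (U1 := U i) (T := T a) ⟨hT.range a, hT.ker a⟩ (hT' a) v)

omit [FiniteDimensional L V] in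
/-- **(N)**: the flow maps the block `U k` to `U k ⊔ (U l ⊓ I)`, if `Y` maps it to `U l` -/
theorem near {x y : L} (hc : ∀ k, x + y * d k ≠ 0) {T T' : Fin 3 → End L V}
    (hT' : ∀ a v w, 𝒟.q (T a v) w = 𝒟.q v (T' a w)) {n : H533.Conn 𝒟.q} {R : J → V}
    (F : FlowAt 𝒟 u t t' I U T T' x y n R) {k l : Fin m}
    (hY : ∀ a, ∀ v ∈ U k, (T a - T' a) v ∈ U l)
    (hYS : ∀ a, ∀ v ∈ U k, (T a - T' a) (Res 𝒟 (tm t t' x y) a v) -
      Res 𝒟 (tm t t' x y) a ((T a - T' a) v) ∈ I) :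
    ∀ v ∈ U k, n.δ v ∈ U k ⊔ (U l ⊓ I) := by
  have hτ : tm t t' x y ∈ Ku 𝒟 u :=
    Submodule.add_mem _ (Submodule.smul_mem _ _ B.ht) (Submodule.smul_mem _ _ B.ht')
  obtain ⟨c, hcR⟩ := exists_rho B F.memR (hc k)
  refine H398.words_ind (S := Res 𝒟 (tm t t' x y)) (I := I) (Uj := U k) (m := n.δ)
    (st_tm_U hG hK B (hc k)).ge (exists_wo hG hK B hc) ?_ ?_ ?_
  · intro a v hv
    obtain ⟨v1, hv1, v2, hv2, rfl⟩ := Submodule.mem_sup.mp hv
    rw [map_add]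
    exact Submodule.add_mem_sup (res_tm_U hG hK B x y hv1 a)
      ⟨res_tm_U hG hK B x y hv2.1 a, res_tm_I hG hK B x y hv2.2 a⟩
  · intro v hv
    exact (sup_le (le_sup_left.trans le_sup_left) le_sup_right :
      U k ⊔ I ≤ U k ⊔ (U l ⊓ I) ⊔ I) (F.blk k v hv)
  · intro v hv a
    have h1 := H398.flow_hn' hG hK n (Y := fun a => T a - T' a) (sk_of_adj hG.form hT') hτ F.memR
      F.tau F.om (hcR v hv) a
    have h2 : n.δ (Res 𝒟 (tm t t' x y) a v) - Res 𝒟 (tm t t' x y) a (n.δ v) =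
        (2 * c) • Res 𝒟 (tm t t' x y) a v +
        ((T a - T' a) (Res 𝒟 (tm t t' x y) a v) -
          Res 𝒟 (tm t t' x y) a ((T a - T' a) v)) := by
      rw [← h1]; abel
    rw [h2]
    refine Submodule.add_mem_sup ((U k).smul_mem _ (res_tm_U hG hK B x y hv a)) ⟨?_, hYS a v hv⟩
    exact (U l).sub_mem (hY a _ (res_tm_U hG hK B x y hv a))
      (res_tm_U hG hK B x y (hY a v hv) a)

omit [FiniteDimensional L V] in
/-- **Two flows agree modulo the block.** -/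
theorem agree {x y x' y' : L} (hc : ∀ k, x + y * d k ≠ 0) (hc' : ∀ k, x' + y' * d k ≠ 0)
    {T T' : Fin 3 → End L V}
    (hT' : ∀ a v w, 𝒟.q (T a v) w = 𝒟.q v (T' a w)) {n n' : H533.Conn 𝒟.q} {R R' : J → V}
    (F : FlowAt 𝒟 u t t' I U T T' x y n R) (F' : FlowAt 𝒟 u t t' I U T T' x' y' n' R')
    {k l : Fin m} (hk : (x' + y' * d k) ^ 2 = (x + y * d k) ^ 2)
    (hl : (x' + y' * d l) ^ 2 = (x + y * d l) ^ 2)
    (hY : ∀ a, ∀ v ∈ U k, (T a - T' a) v ∈ U l)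
    (hn' : ∀ v ∈ U k, n'.δ v ∈ U k ⊔ (U l ⊓ I)) :
    ∀ v ∈ U k, n.δ v - n'.δ v ∈ U k := by
  have hτ : ∀ x y, tm t t' x y ∈ Ku 𝒟 u := fun x y =>
    Submodule.add_mem _ (Submodule.smul_mem _ _ B.ht) (Submodule.smul_mem _ _ B.ht')
  obtain ⟨c, hcR⟩ := exists_rho B F.memR (hc k)
  obtain ⟨c', hcR'⟩ := exists_rho B F'.memR (hc' k)
  have hSk : ∀ a, ∀ v ∈ U k, Res 𝒟 (tm t t' x' y') a v = Res 𝒟 (tm t t' x y) a v :=
    fun a v hv => by rw [res_tm hG hK B x y hv, res_tm hG hK B x' y' hv, hk]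
  have hSl : ∀ a, ∀ v ∈ U l, Res 𝒟 (tm t t' x' y') a v = Res 𝒟 (tm t t' x y) a v :=
    fun a v hv => by rw [res_tm hG hK B x y hv, res_tm hG hK B x' y' hv, hl]
  refine H398.words_ind (S := Res 𝒟 (tm t t' x y)) (I := I) (Uj := U k) (m := n.δ - n'.δ)
    (Z := U k) (st_tm_U hG hK B (hc k)).ge (exists_wo hG hK B hc)
    (fun a v hv => res_tm_U hG hK B x y hv a) ?_ ?_
  · intro v hv
    exact Submodule.sub_mem _ (F.blk k v hv) (F'.blk k v hv)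
  · intro v hv a
    have h1 := H398.flow_hn' hG hK n (Y := fun a => T a - T' a) (sk_of_adj hG.form hT')
      (hτ x y) F.memR F.tau F.om (hcR v hv) a
    have h2 := H398.flow_hn' hG hK n' (Y := fun a => T a - T' a) (sk_of_adj hG.form hT')
      (hτ x' y') F'.memR F'.tau F'.om (hcR' v hv) a
    have h3 : Res 𝒟 (tm t t' x' y') a (n'.δ v) = Res 𝒟 (tm t t' x y) a (n'.δ v) := by
      obtain ⟨v1, hv1, v2, hv2, h⟩ := Submodule.mem_sup.mp (hn' v hv)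
      rw [← h, map_add, map_add, hSk a v1 hv1, hSl a v2 hv2.1]
    rw [hSk a v hv, h3, hSl a _ (hY a v hv)] at h2
    rw [AddMonoidHom.sub_apply, AddMonoidHom.sub_apply, map_sub]
    have h4 : n.δ (Res 𝒟 (tm t t' x y) a v) - n'.δ (Res 𝒟 (tm t t' x y) a v) -
        (Res 𝒟 (tm t t' x y) a (n.δ v) - Res 𝒟 (tm t t' x y) a (n'.δ v)) =
        (2 * c) • Res 𝒟 (tm t t' x y) a v - (2 * c') • Res 𝒟 (tm t t' x y) a v := by
      rw [← h1, ← h2]; abel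
    rw [h4]
    exact (U k).sub_mem ((U k).smul_mem _ (res_tm_U hG hK B x y hv a))
      ((U k).smul_mem _ (res_tm_U hG hK B x y hv a))

omit hK in
/-- **The derivative of the coefficients.** -/
theorem dq {x y : L} {i j : Fin m} (hj : x + y * d j ≠ 0) {T T' : Fin 3 → End L V}
    (hTm : ∀ a, T a ∈ Ten 𝒟.q (U i) (U j))
    (hT' : ∀ a v w, 𝒟.q (T a v) w = 𝒟.q v (T' a w)) {n : H533.Conn 𝒟.q} {R : J → V}
    (F : FlowAt 𝒟 u t t' I U T T' x y n R) {e e₁ κ : V} (he : e ∈ U j ⊓ I) (he₁ : e₁ ∈ U j)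
    (hκ : κ ∈ U i) (hne : n.δ e = e₁ + κ) :
    ∃ K : L, (∀ l, n.d (𝒟.q e (t l)) = K * 𝒟.q e (t l) + 𝒟.q e₁ (t l) +
        (x + y * d i) / (x + y * d j) * 𝒟.q κ (t l)) ∧
      ∀ l, n.d (𝒟.q e (𝒟.om t l)) = K * 𝒟.q e (𝒟.om t l) + 𝒟.q e₁ (𝒟.om t l) +
        (x + y * d i) / (x + y * d j) * 𝒟.q κ (𝒟.om t l) := by
  have hq := hG.form
  obtain ⟨ρ, hρ⟩ := exists_rho B F.memR hj
  have hρ' : ∀ l, 𝒟.q (𝒟.om R l) e = ρ * 𝒟.q (𝒟.om (tm t t' x y) l) e := fun l =>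
    H258.om_rel (fun l => hρ e he.1 l) l
  have hTd : ∀ a, T' a ∈ Ten 𝒟.q (U j) (U i) := fun a => H258.flip_ten hq (hTm a) (hT' a)
  have key : ∀ (v w z : V) (a : Fin 3), (∀ s ∈ U j, 𝒟.q w s = (x + y * d j) * 𝒟.q v s) →
      (∀ s ∈ U i, 𝒟.q w s = (x + y * d i) * 𝒟.q v s) →
      n.δ w = (T a - T' a) w + z → 𝒟.q z e = ρ * 𝒟.q w e →
      n.d (𝒟.q e v) = (n.d (x + y * d j)⁻¹ * (x + y * d j) + ρ) * 𝒟.q e v + 𝒟.q e₁ v +
        (x + y * d i) / (x + y * d j) * 𝒟.q κ v := by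
    intro v w z a h1 h2 h3 h4
    have e1 : 𝒟.q e v = (x + y * d j)⁻¹ * 𝒟.q e w := by
      rw [hq.symm e w, h1 e he.1, ← mul_assoc, inv_mul_cancel₀ hj, one_mul, hq.symm]
    have e2 : 𝒟.q e w = (x + y * d j) * 𝒟.q e v := by
      rw [hq.symm e w, h1 e he.1, hq.symm]
    have e3 : 𝒟.q e ((T a - T' a) w) = 0 := by
      rw [LinearMap.sub_apply, map_sub,
        S2.I_perp B he.2 (S2.U_le B i ((hTm a).1 w)),
        S2.I_perp B he.2 (S2.U_le B j ((hTd a).1 w)), sub_zero]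
    have e4 : n.d (𝒟.q e w) = (x + y * d j) * 𝒟.q e₁ v + (x + y * d i) * 𝒟.q κ v +
        ρ * ((x + y * d j) * 𝒟.q e v) := by
      rw [n.metric, hne, h3, map_add, map_add, LinearMap.add_apply, e3, zero_add,
        hq.symm e z, h4, hq.symm e₁ w, h1 e₁ he₁, hq.symm κ w, h2 κ hκ, hq.symm w e, e2,
        hq.symm v e₁, hq.symm v κ]
    have e5 : n.d (𝒟.q e v) = n.d (x + y * d j)⁻¹ * 𝒟.q e w +
        (x + y * d j)⁻¹ * n.d (𝒟.q e w) := by
      rw [← n.leib, ← e1]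
    rw [e5, e4, e2]
    field_simp
    ring
  refine ⟨n.d (x + y * d j)⁻¹ * (x + y * d j) + ρ, fun l => ?_, fun l => ?_⟩
  · exact key (t l) (tm t t' x y l) (R l) (𝒟.arm l) (fun s hs => H258.q_tm B x y j hs l)
      (fun s hs => H258.q_tm B x y i hs l) (F.tau l) (hρ e he.1 l)
  · exact key (𝒟.om t l) (𝒟.om (tm t t' x y) l) (𝒟.om R l) (𝒟.arm l)
      (fun s hs => H258.om_rel (fun l => H258.q_tm B x y j hs l) l)
      (fun s hs => H258.om_rel (fun l => H258.q_tm B x y i hs l) l) (F.om l) (hρ' l)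

/-- **The odd step.** -/
theorem odd_step [CharZero L] {i j k : Fin m} (hij : i ≠ j) (hkj : k ≠ j)
    (hki : d k = d i) {x y x' y' : L} (h1 : x' + y' * d i = -(x + y * d i))
    (h2 : x' + y' * d j = x + y * d j) (hc : ∀ k, x + y * d k ≠ 0)
    (hc' : ∀ k, x' + y' * d k ≠ 0) {T T' : Fin 3 → End L V}
    (hT : Adm 𝒟.q (Res 𝒟 (tm t t' x y)) I (U i) (U j) T)
    (hT' : ∀ a v w, 𝒟.q (T a v) w = 𝒟.q v (T' a w)) {n n' : H533.Conn 𝒟.q} {R R' : J → V}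
    (PF : PairFlow 𝒟 u t t' W I U T T' x y x' y' n R n' R')
    (hOff : ∀ a, ∀ e ∈ U j ⊓ I, ∀ f ∈ U k,
      fam 𝒟 t (Pi.single a (tp 𝒟.q f e)) ∈ WF 𝒟 t W I u)
    (hP : fam 𝒟 t T ∈ WF 𝒟 t W I u) (hP' : fam 𝒟 t T' ∈ WF 𝒟 t W I u)
    (hIW : ∀ Z : Fin 3 → End L V, (∀ a, Z a ∈ Ten 𝒟.q I W) → fam 𝒟 t Z ∈ WF 𝒟 t W I u)
    (a₀ : Fin 3) {e e₁ κ f : V} (he : e ∈ U j ⊓ I) (he₁ : e₁ ∈ U j ⊓ I) (hκ : κ ∈ U i)
    (hne : n.δ e = e₁ + κ) (hf : f ∈ U k) :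
    fam 𝒟 t (Pi.single a₀ (tp 𝒟.q f κ)) ∈ WF 𝒟 t W I u := by
  have hq := hG.form
  have hTm : ∀ a, T a ∈ Ten 𝒟.q (U i) (U j) := fun a => ⟨hT.range a, hT.ker a⟩
  have hTd : ∀ a, T' a ∈ Ten 𝒟.q (U j) (U i) := fun a => H258.flip_ten hq (hTm a) (hT' a)
  have hYS := fun a w hw => adm_comm hG hK B hc hT hT' a (w := w) hw
  have hTk : ∀ k, k ≠ j → ∀ a, ∀ v ∈ U k, T a v = 0 := fun k hk a v hv =>
    hT.ker a v fun w hw => B.ortho k j hk v hv w hw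
  have hTk' : ∀ k, k ≠ i → ∀ a, ∀ v ∈ U k, T' a v = 0 := fun k hk a v hv =>
    (hTd a).2 v fun w hw => B.ortho k i hk v hv w hw
  -- `Y` on the two blocks
  have hYj : ∀ a, ∀ v ∈ U j, (T a - T' a) v ∈ U i := fun a v hv => by
    rw [LinearMap.sub_apply, hTk' j hij.symm a v hv, sub_zero]
    exact hT.range a v
  have hYk : ∀ a, ∀ v ∈ U k, (T a - T' a) v ∈ U j := fun a v hv => by
    rw [LinearMap.sub_apply, hTk k hkj a v hv, zero_sub]
    exact (U j).neg_mem ((hTd a).1 v)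
  have hsk : (x' + y' * d k) ^ 2 = (x + y * d k) ^ 2 := by rw [hki, h1, neg_sq]
  have hsi : (x' + y' * d i) ^ 2 = (x + y * d i) ^ 2 := by rw [h1, neg_sq]
  have hsj : (x' + y' * d j) ^ 2 = (x + y * d j) ^ 2 := by rw [h2]
  -- commutators at the second base
  have hSW : ∀ k, ∀ a, ∀ v ∈ U k, (x' + y' * d k) ^ 2 = (x + y * d k) ^ 2 →
      Res 𝒟 (tm t t' x' y') a v = Res 𝒟 (tm t t' x y) a v := fun k a v hv h => by
    rw [res_tm hG hK B x y hv, res_tm hG hK B x' y' hv, h]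
  have hYSj : ∀ a, ∀ v ∈ U j, (T a - T' a) (Res 𝒟 (tm t t' x' y') a v) -
      Res 𝒟 (tm t t' x' y') a ((T a - T' a) v) ∈ I := fun a v hv => by
    rw [hSW j a v hv hsj, hSW i a _ (hYj a v hv) hsi]
    exact hYS a v (S2.U_le B j hv)
  have hYSk : ∀ a, ∀ v ∈ U k, (T a - T' a) (Res 𝒟 (tm t t' x' y') a v) -
      Res 𝒟 (tm t t' x' y') a ((T a - T' a) v) ∈ I := fun a v hv => by
    rw [hSW k a v hv hsk, hSW j a _ (hYk a v hv) hsj]
    exact hYS a v (S2.U_le B k hv)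
  -- the derivatives of `e` and `f`
  have hej := agree hG hK B hc hc' hT' PF.F PF.F' hsj hsi hYj
    (near hG hK B hc' hT' PF.F' hYj hYSj) e he.1
  have hfk := agree hG hK B hc hc' hT' PF.F PF.F' hsk hsj hYk
    (near hG hK B hc' hT' PF.F' hYk hYSk) f hf
  set e₂ : V := n'.δ e - κ with he2
  have he₂ : e₂ ∈ U j ⊓ I := by
    have h3 : e₂ = e₁ - (n.δ e - n'.δ e) := by rw [he2, hne]; abel
    have hκI : κ ∈ I := by
      have h4 : κ = n.δ e - e₁ := by rw [hne]; abel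
      rw [h4]
      exact I.sub_mem (PF.F.mapI e he.2) he₁.2
    refine ⟨?_, ?_⟩
    · rw [h3]
      exact (U j).sub_mem he₁.1 hej
    · exact I.sub_mem (PF.F'.mapI e he.2) hκI
  have hne' : n'.δ e = e₂ + κ := by rw [he2]; abel
  obtain ⟨K1, hK1, hK1'⟩ := dq hG B (hc j) hTm hT' PF.F he he₁.1 hκ hne
  obtain ⟨K2, hK2, hK2'⟩ := dq hG B (hc' j) hTm hT' PF.F' he he₂.1 hκ hne'
  -- the derivative of the family
  obtain ⟨r, hr, ⟨Γ, hΓ⟩, hn⟩ := hOff a₀ e he f hf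
  obtain ⟨Z, ⟨α, β, hZ⟩, m1, m2⟩ := PF.main r hr Γ hΓ _ hn
  have hZW : fam 𝒟 t Z ∈ WF 𝒟 t W I u := by
    have e1 : fam 𝒟 t Z = fam 𝒟 t (Z - α • T - β • T') + α • fam 𝒟 t T + β • fam 𝒟 t T' := by
      rw [fam_sub, fam_sub, fam_smul, fam_smul]
      abel
    rw [e1]
    exact add_mem (add_mem (hIW _ hZ) (Submodule.smul_mem _ _ hP)) (Submodule.smul_mem _ _ hP')
  set c : L := (x + y * d i) / (x + y * d j) with hcdef
  have hc0 : (2 : L) * c ≠ 0 :=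
    mul_ne_zero two_ne_zero (div_ne_zero (hc i) (hc j))
  have hcc : (x' + y' * d i) / (x' + y' * d j) = -c := by rw [h1, h2, neg_div]
  rw [hcc] at hK2 hK2'
  set g : V := n.δ f - n'.δ f with hg
  have k1 : fam 𝒟 t (Pi.single a₀ ((K1 - K2) • tp 𝒟.q f e + tp 𝒟.q f (e₁ - e₂) +
      tp 𝒟.q g e)) ∈ WF 𝒟 t W I u := by
    rw [← famS_apply, map_add, map_add, map_smul]
    refine add_mem (add_mem (Submodule.smul_mem _ _ (hOff a₀ e he f hf)) ?_) ?_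
    · exact hOff a₀ _ (Submodule.sub_mem _ he₁ he₂) f hf
    · exact hOff a₀ e he g hfk
  have main : ∀ (b : Fin 3) (v z : V),
      n.d (𝒟.q e v) = K1 * 𝒟.q e v + 𝒟.q e₁ v + c * 𝒟.q κ v →
      n'.d (𝒟.q e v) = K2 * 𝒟.q e v + 𝒟.q e₂ v + -c * 𝒟.q κ v →
      (Pi.single a₀ ((2 * c) • tp 𝒟.q f κ) : Fin 3 → End L V) b v =
        (n.δ ((Pi.single a₀ (tp 𝒟.q f e) : Fin 3 → End L V) b v) -
            (T b - T' b) ((Pi.single a₀ (tp 𝒟.q f e) : Fin 3 → End L V) b v - z) - Z b v) -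
          (n'.δ ((Pi.single a₀ (tp 𝒟.q f e) : Fin 3 → End L V) b v) -
            (T b - T' b) ((Pi.single a₀ (tp 𝒟.q f e) : Fin 3 → End L V) b v - z) -
            (-Z) b v) + (2 : L) • Z b v -
          (Pi.single a₀ ((K1 - K2) • tp 𝒟.q f e + tp 𝒟.q f (e₁ - e₂) + tp 𝒟.q g e) :
            Fin 3 → End L V) b v := by
    intro b v z hd1 hd2
    by_cases hb : b = a₀
    · subst hb
      rw [Pi.single_eq_same, Pi.single_eq_same, Pi.single_eq_same]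
      simp only [LinearMap.add_apply, LinearMap.smul_apply, tp_apply, Pi.neg_apply,
        LinearMap.neg_apply]
      have e5 : 𝒟.q (e₁ - e₂) v = 𝒟.q e₁ v - 𝒟.q e₂ v := by
        rw [map_sub, LinearMap.sub_apply]
      rw [n.smul, n'.smul, hd1, hd2, e5, hg]
      module
    · rw [Pi.single_eq_of_ne hb, Pi.single_eq_of_ne hb, Pi.single_eq_of_ne hb]
      simp only [LinearMap.zero_apply, map_zero, zero_sub, Pi.neg_apply, LinearMap.neg_apply]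
      module
  have key : fam 𝒟 t (Pi.single a₀ ((2 * c) • tp 𝒟.q f κ)) =
      dy 𝒟 n (T - T') Z t (fam 𝒟 t (Pi.single a₀ (tp 𝒟.q f e))) r -
        dy 𝒟 n' (T - T') (-Z) t (fam 𝒟 t (Pi.single a₀ (tp 𝒟.q f e))) r +
        (2 : L) • fam 𝒟 t Z -
        fam 𝒟 t (Pi.single a₀ ((K1 - K2) • tp 𝒟.q f e + tp 𝒟.q f (e₁ - e₂) +
          tp 𝒟.q g e)) :=
    Prod.ext (funext fun l => main (𝒟.arm l) (t l) (r l) (hK1 l) (hK2 l))
      (funext fun l => main (𝒟.arm l) (𝒟.om t l) (𝒟.om r l) (hK1' l) (hK2' l))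
  have fin : fam 𝒟 t (Pi.single a₀ ((2 * c) • tp 𝒟.q f κ)) ∈ WF 𝒟 t W I u := by
    rw [key]
    exact sub_mem (add_mem (sub_mem m1 m2) (Submodule.smul_mem _ _ hZW)) k1
  rw [← famS_apply, map_smul, famS_apply] at fin
  exact (Submodule.smul_mem_iff _ hc0).1 fin

/-- **The second half of (C0b).** -/
theorem second_half [CharZero L]
    (hOff : ∀ i j, d i ≠ d j → ∀ a, ∀ e ∈ U i ⊓ I, ∀ f ∈ U j,
      fam 𝒟 t (Pi.single a (tp 𝒟.q f e)) ∈ WF 𝒟 t W I u)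
    (hIW : ∀ Z : Fin 3 → End L V, (∀ a, Z a ∈ Ten 𝒟.q I W) → fam 𝒟 t Z ∈ WF 𝒟 t W I u)
    (hpf : ∀ i j, d i ≠ d j → ∃ x y x' y' : L, x' + y' * d i = -(x + y * d i) ∧
      x' + y' * d j = x + y * d j ∧ (∀ k, x + y * d k ≠ 0) ∧ (∀ k, x' + y' * d k ≠ 0) ∧
      ∀ T T' : Fin 3 → End L V, Adm 𝒟.q (Res 𝒟 (tm t t' x y)) I (U i) (U j) T →
        (∀ a v w, 𝒟.q (T a v) w = 𝒟.q v (T' a w)) →
        fam 𝒟 t T ∈ WF 𝒟 t W I u ∧ fam 𝒟 t T' ∈ WF 𝒟 t W I u ∧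
        ∃ n R n' R', PairFlow 𝒟 u t t' W I U T T' x y x' y' n R n' R') :
    ∀ i k a, ∀ e ∈ U i ⊓ I, ∀ f ∈ U k,
      fam 𝒟 t (Pi.single a (tp 𝒟.q f e)) ∈ WF 𝒟 t W I u := by
  have hq := hG.form
  intro i k
  by_cases hik : d i = d k
  swap
  · exact fun a => hOff i k hik a
  obtain ⟨j, hj⟩ := B.two i
  have hij : i ≠ j := fun h => hj (by rw [h])
  have hkj : k ≠ j := fun h => hj (by rw [← h, hik])
  have hdjk : d j ≠ d k := by rw [← hik]; exact hj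
  obtain ⟨x, y, x', y', h1, h2, hc, hc', hF⟩ := hpf i j hj.symm
  -- the subspace
  let X : Submodule L V :=
    { carrier := {z | z ∈ I ∧ ∀ a, ∀ f ∈ U k,
        fam 𝒟 t (Pi.single a (tp 𝒟.q f z)) ∈ WF 𝒟 t W I u}
      zero_mem' := ⟨I.zero_mem, fun a f _ => by
        rw [tp_zero_right, ← famS_apply, map_zero]; exact zero_mem _⟩
      add_mem' := fun {v w} hv hw => ⟨I.add_mem hv.1 hw.1, fun a f hf => by
        rw [tp_add_right, ← famS_apply, map_add]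
        exact add_mem (hv.2 a f hf) (hw.2 a f hf)⟩
      smul_mem' := fun c v hv => ⟨I.smul_mem c hv.1, fun a f hf => by
        rw [tp_smul_right, ← famS_apply, map_smul]
        exact Submodule.smul_mem _ _ (hv.2 a f hf)⟩ }
  have hXj : U j ⊓ I ≤ X := fun e he => ⟨he.2, fun a f hf => hOff j k hdjk a e he f hf⟩
  have hfin : U i ⊓ I ≤ X := by
    refine glue_tm hG hK B hc hij X hXj fun T hT => ?_
    -- the adjoint
    have hex : ∀ a, ∃ D : End L V, ∀ v w, 𝒟.q (T a v) w = 𝒟.q v (D w) := fun a => by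
      obtain ⟨D, hD⟩ := hq.exists_end (𝒟.q.compl₂ (T a))
      refine ⟨D, fun v w => ?_⟩
      rw [hq.symm v, hD, LinearMap.compl₂_apply, hq.symm]
    choose T' hT' using hex
    obtain ⟨hP, hP', n, R, n', R', PF⟩ := hF T T' hT hT'
    have hτ : tm t t' x y ∈ Ku 𝒟 u :=
      Submodule.add_mem _ (Submodule.smul_mem _ _ B.ht) (Submodule.smul_mem _ _ B.ht')
    obtain ⟨N, hN⟩ := exists_nil hG hK B hc
    have hTm : ∀ a, T a ∈ Ten 𝒟.q (U i) (U j) := fun a => ⟨hT.range a, hT.ker a⟩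
    have hTd : ∀ a, T' a ∈ Ten 𝒟.q (U j) (U i) := fun a => H258.flip_ten hq (hTm a) (hT' a)
    have hYj : ∀ a, ∀ v ∈ U j, (T a - T' a) v ∈ U i := fun a v hv => by
      rw [LinearMap.sub_apply, (hTd a).2 v fun w hw => B.ortho j i hij.symm v hv w hw, sub_zero]
      exact hT.range a v
    have hnj := near hG hK B hc hT' PF.F hYj
      fun a v hv => adm_comm hG hK B hc hT hT' a (S2.U_le B j hv)
    refine ⟨n.δ, H398.flow_glue hG hK n hτ PF.F.memR hT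
      (fun a x y => by rw [hq.symm, ← hT', hq.symm]) PF.F.tau PF.F.om
      (st_tm_U hG hK B (hc i)) (st_tm_U hG hK B (hc j)) (st_tm_I hG hK B x y) hN
      (B.ortho i j hij) (exists_rho B PF.F.memR (hc j)).choose_spec (PF.F.blk j) PF.F.mapI ?_⟩
    intro e he
    obtain ⟨e₁, he₁, κ, hκ, hne⟩ := Submodule.mem_sup.mp (hnj e he.1)
    have he₁' : e₁ ∈ U j ⊓ I := ⟨he₁, by
      have h3 : e₁ = n.δ e - κ := by rw [← hne]; abel
      rw [h3]
      exact I.sub_mem (PF.F.mapI e he.2) hκ.2⟩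
    rw [← hne]
    refine X.add_mem (hXj he₁') ⟨hκ.2, fun a f hf => ?_⟩
    exact odd_step hG hK B hij hkj hik.symm h1 h2 hc hc' hT hT' PF
      (fun a e he f hf => hOff j k hdjk a e he f hf) hP hP' hIW a he he₁' hκ.1 hne.symm hf
  exact fun a e he f hf => (hfin he).2 a f hf

end base

end Vale.Agent.P182.H647
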