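import Vale.Agent.P182.H746.Twist
import Vale.Agent.P182.H563.RowS

/-!
# Pairs of good base points of opposite parity

For two eigenvalues `d i ≠ d j` there are two base points `(x, y)`, `(x', y')` off the bad lines
with `u_i' = -u_i` and `u_j' = u_j`.
-/

namespace Vale.Agent.P182.H647

open Module Matrix Filter Vale.Agent.P182.H533 Vale.Agent.P182.B1 Vale.Agent.P182.H922
  Vale.Agent.P182.H578 Vale.Agent.P182.H588 Vale.Agent.P182.H181 Vale.Agent.P182.H983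

universe u v w

section lines

variable {L : Type u} [Field L]

/-- **Two base points of opposite parity, off finitely many lines.** -/
theorem exists_pair [CharZero L] {F : Set (L × L)} (hF : F.Finite) (hF0 : ∀ b ∈ F, b ≠ 0)
    {a b : L} (hab : a ≠ b) :
    ∃ x y x' y' : L, x' + y' * a = -(x + y * a) ∧ x' + y' * b = x + y * b ∧
      (∀ c ∈ F, c.1 * x + c.2 * y ≠ 0) ∧ ∀ c ∈ F, c.1 * x' + c.2 * y' ≠ 0 := by
  obtain ⟨s, h1, h2⟩ := (H746.eventually_avoid hab hF hF0).exists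
  exact ⟨1, s, _, _, H746.mu_left hab s, H746.mu_right hab s, h1, h2⟩

end lines

section base

variable {L : Type u} {V : Type v} {J : Type w} [Field L] [AddCommGroup V] [Module L V]
  [Fintype J] [DecidableEq J] [FiniteDimensional L V] {𝒟 : Cfg L V J} {u : J → L} {t t' : J → V}
  {W I : Submodule L V} {n : ℕ} {U : Fin n → Submodule L V} {d : Fin n → L} {p : Fin 3 → ℕ}

/-- **Good pairs of base points, with row (S) and the commutant at both.** -/
theorem exists_pair_rowS [CharZero L] (hC : Ctx 𝒟 u) (B : Blk 𝒟 u t t' W I U d p)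
    (hM : MaxCoreU 𝒟 u t) {i j : Fin n} (hij : d i ≠ d j) :
    ∃ x y x' y' : L, x' + y' * d i = -(x + y * d i) ∧ x' + y' * d j = x + y * d j ∧
      (∀ k, x + y * d k ≠ 0) ∧ (∀ k, x' + y' * d k ≠ 0) ∧
      (∀ M : End L V, (∀ w ∈ W, M w ∈ W) → (∀ w ∈ I, M w ∈ I) →
        (∀ a, ∀ w ∈ W, M (Res 𝒟 (tm t t' x y) a w) - Res 𝒟 (tm t t' x y) a (M w) ∈ I) →
        ∀ a, ∀ w ∈ W, M (Res 𝒟 t a w) - Res 𝒟 t a (M w) ∈ I) ∧
      (∀ M : End L V, (∀ w ∈ W, M w ∈ W) → (∀ w ∈ I, M w ∈ I) →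
        (∀ a, ∀ w ∈ W, M (Res 𝒟 (tm t t' x' y') a w) - Res 𝒟 (tm t t' x' y') a (M w) ∈ I) →
        ∀ a, ∀ w ∈ W, M (Res 𝒟 t a w) - Res 𝒟 t a (M w) ∈ I) ∧
      RowS 𝒟 u t t' W I x y ∧ RowS 𝒟 u t t' W I x' y' := by
  obtain ⟨F, hF, hF0, h⟩ := H563.exists_rowS two_ne_zero hC B hM
  obtain ⟨x, y, x', y', h1, h2, h3, h4⟩ := exists_pair hF hF0 hij
  obtain ⟨k1, k2, k3⟩ := h x y h3
  obtain ⟨m1, m2, m3⟩ := h x' y' h4
  exact ⟨x, y, x', y', h1, h2, k1, m1, k2, m2, k3, m3⟩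

end base

end Vale.Agent.P182.H647
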